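import Claimed.Agent.R285.Base.RG

/-!
# ROW 285, package BP-PK-SPACES, leaves L-SP-CONV-M, L-SP-CONV-G: a Gaussian expectation only sees the covariance on the dependence set      (architect helper214)

Paper-free.  `conv Γ F 0 = ∫ ζ, F (0 + toC ζ) ∂(gauss G Γ)`, `gauss G Γ = (multivariateGaussian 0 Γ).map (toLp 2).symm`.   NO measurability of `F` is assumed: this is why `sp_aesm_of_comp` is needed.

## L-SP-CONV-M (Mathlib only, ~80 l.)
* `sp_aesm_fst`: let `g` be a strongly measurable version of `H ∘ fst`.  Disintegrate `μ = μ.fst ⊗ₘ μ.condKernel` (`MeasureTheory.Measure.disintegrate`); by `Measure.ae_ae_of_ae_compProd`, for `μ.fst`-a.e. `x`, `g (x, y) = H x` for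
  `condKernel x`-a.e. `y`, so `H x = ∫ y, g (x, y) ∂(μ.condKernel x)` (Markov kernel; `integral_congr_ae`, `integral_const`), and `x ↦ ∫ y, g (x, y) ∂(κ x)` is strongly measurable (`StronglyMeasurable.integral_kernel_prod_right'`).
* `sp_aesm_of_comp`: apply it to `μ.map (fun x => (R x, x))` on `Y × X`; `x ↦ (R x, x)` is a measurable embedding (`Measurable.measurableEmbedding`, injective, standard Borel), `MeasurableEmbedding.aestronglyMeasurable_map_iff`; the first marginal is `μ.map R`.
## L-SP-CONV-G (~200 l.)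
* `sp_gauss_marginal`: copy the proof of Mathlib's `measurePreserving_restrict₂_multivariateGaussian` (`IsGaussian.ext`: mean `0`, covariance on the basis via `covariance_eval_multivariateGaussian`) for the continuous linear map
  `EuclideanSpace ℝ G.V → EuclideanSpace ℝ D`, `ζ ↦ (x ↦ ζ (π x))`.
* `sp_conv_copy`: put `W = D → ℝ`, `R ζ = fun x => ζ (π x)`, `R'` likewise.  By `hinj` there is `ext : W → (G.V → ℝ)` with `R (ext w) = w` (e.g. `fun v => if h : ∃ x : D, π x = v then w h.choose else 0`), the same for `G'`.  `H w := F (toC (ext w))`.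
  By `hF` (twice): `F (toC φ) = H (R φ)` and `F' (toC φ') = H (R' φ')`.  `ν := (gauss G Γ).map R = (gauss G' Γ').map R'` by `sp_gauss_marginal` + `hcov`.
  If `H` is `ν`-a.e. strongly measurable: `integral_map` on both sides.  If not: both integrals vanish (`integral_non_aestronglyMeasurable`, contrapositive of `sp_aesm_of_comp`).
-/

set_option autoImplicit false

namespace Claimed.Agent.R285.RG

open scoped BigOperators ENNReal NNReal
open MeasureTheory ProbabilityTheory
open scoped RealInnerProductSpace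

noncomputable section

/-- L-SP-CONV-M -/
theorem sp_aesm_fst {α Ω : Type*} [MeasurableSpace α] [MeasurableSpace Ω] [StandardBorelSpace Ω] [Nonempty Ω]
    (μ : Measure (α × Ω)) [IsFiniteMeasure μ] (H : α → ℂ) (h : AEStronglyMeasurable (fun p : α × Ω => H p.1) μ) :
    AEStronglyMeasurable H μ.fst := by
  have := h.integral_condKernel
  simpa using this

/-- L-SP-CONV-M -/
theorem sp_aesm_of_comp {X Y : Type*} [MeasurableSpace X] [MeasurableSpace Y] [StandardBorelSpace X] [StandardBorelSpace Y] [Nonempty X]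
    (μ : Measure X) [IsFiniteMeasure μ] (R : X → Y) (hR : Measurable R) (H : Y → ℂ) (h : AEStronglyMeasurable (fun x => H (R x)) μ) :
    AEStronglyMeasurable H (μ.map R) := by
  have hm : Measurable (fun x => (R x, x)) := hR.prodMk measurable_id
  have he : MeasurableEmbedding (fun x => (R x, x)) := hm.measurableEmbedding (fun a b hab => (Prod.ext_iff.1 hab).2)
  have h1 : AEStronglyMeasurable (fun p : Y × X => H p.1) (μ.map (fun x => (R x, x))) := by
    rw [he.aestronglyMeasurable_map_iff]
    exact h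
  have h2 := sp_aesm_fst _ H h1
  have h3 : (μ.map (fun x => (R x, x))).fst = μ.map R := Measure.fst_map_prodMk (X := R) (Y := fun x => x) measurable_id
  rwa [h3] at h2

/-- reindexing as a continuous linear map of Euclidean spaces -/
def spReidx {ι κ : Type*} [Fintype ι] [Fintype κ] (e : κ → ι) : EuclideanSpace ℝ ι →L[ℝ] EuclideanSpace ℝ κ :=
  LinearMap.toContinuousLinearMap
    ((WithLp.linearEquiv 2 ℝ (κ → ℝ)).symm.toLinearMap ∘ₗ LinearMap.funLeft ℝ ℝ e ∘ₗ (WithLp.linearEquiv 2 ℝ (ι → ℝ)).toLinearMap)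

theorem spReidx_apply {ι κ : Type*} [Fintype ι] [Fintype κ] (e : κ → ι) (u : EuclideanSpace ℝ ι) (x : κ) :
    spReidx e u x = u (e x) := rfl

/-- reindexed marginals of a multivariate Gaussian (`e` need not be injective) -/
theorem sp_mvg_map {ι κ : Type*} [Fintype ι] [Fintype κ] [DecidableEq ι] [DecidableEq κ] (e : κ → ι) (S : Matrix ι ι ℝ)
    (hS : S.PosSemidef) :
    (multivariateGaussian 0 S).map (spReidx e) = multivariateGaussian 0 (S.submatrix e e) := by
  apply IsGaussian.ext
  · simp only [id_eq, integral_id_multivariateGaussian]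
    rw [ContinuousLinearMap.integral_id_map, integral_id_multivariateGaussian, map_zero]
    exact IsGaussian.integrable_id
  rw [← ContinuousLinearMap.toBilinForm_inj]
  refine LinearMap.BilinForm.ext_basis (EuclideanSpace.basisFun κ ℝ).toBasis fun i j ↦ ?_
  rw [ContinuousLinearMap.toBilinForm_apply, ContinuousLinearMap.toBilinForm_apply,
    covarianceBilin_apply_eq_cov, covariance_map]
  · have (i : κ) : (fun u ↦ ⟪(EuclideanSpace.basisFun κ ℝ).toBasis i, u⟫) ∘ (spReidx e) = fun u ↦ u (e i) := by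
      ext u; simp [PiLp.inner_apply, spReidx_apply]
    simp_rw [this, covariance_eval_multivariateGaussian hS,
      covarianceBilin_multivariateGaussian (hS.submatrix _)]
    simp
  any_goals exact Measurable.aestronglyMeasurable (by fun_prop)
  · fun_prop
  · exact IsGaussian.memLp_two_id

/-- L-SP-CONV-G: marginals of `gauss` -/
theorem sp_gauss_marginal {G : Geom} (Γ : Matrix G.V G.V ℝ) (hΓ : Γ.PosSemidef) (D : Finset (ℤ × ℤ)) :
    (gauss G Γ).map (fun (ζ : G.V → ℝ) (x : D) => ζ (G.π x.1))
      = (multivariateGaussian 0 (Γ.submatrix (fun x : D => G.π x.1) (fun x : D => G.π x.1))).map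
          (MeasurableEquiv.toLp 2 (D → ℝ)).symm := by
  rw [← sp_mvg_map (fun x : D => G.π x.1) Γ hΓ]
  unfold gauss
  rw [Measure.map_map (by fun_prop) (by fun_prop), Measure.map_map (by fun_prop) (by fun_prop)]
  rfl

instance sp_gauss_finite {G : Geom} (Γ : Matrix G.V G.V ℝ) : IsFiniteMeasure (gauss G Γ) := by
  unfold gauss; infer_instance

/-- L-SP-CONV-G, **EXPORT** (= `conv_copy` of `Base/Spaces.lean`, verbatim) -/
theorem sp_conv_copy {G G' : Geom} (Γ : Matrix G.V G.V ℝ) (Γ' : Matrix G'.V G'.V ℝ) (hΓ : Γ.PosSemidef) (hΓ' : Γ'.PosSemidef)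
    (D : Finset (ℤ × ℤ)) (hinj : Set.InjOn G.π D) (hinj' : Set.InjOn G'.π D)
    (hcov : ∀ x ∈ D, ∀ y ∈ D, Γ (G.π x) (G.π y) = Γ' (G'.π x) (G'.π y))
    (F : Fn G) (F' : Fn G') (hF : ∀ (φ : G.V → ℝ) (φ' : G'.V → ℝ), (∀ x ∈ D, φ (G.π x) = φ' (G'.π x)) → F (toC φ) = F' (toC φ')) :
    conv Γ F 0 = conv Γ' F' 0 := by
  classical
  set R : (G.V → ℝ) → (D → ℝ) := fun ζ x => ζ (G.π x.1) with hR
  set R' : (G'.V → ℝ) → (D → ℝ) := fun ζ x => ζ (G'.π x.1) with hR'
  have hRm : Measurable R := by fun_prop
  have hRm' : Measurable R' := by fun_prop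
  let ext : (D → ℝ) → (G.V → ℝ) := fun w v => if h : ∃ x : D, G.π x.1 = v then w h.choose else 0
  let ext' : (D → ℝ) → (G'.V → ℝ) := fun w v => if h : ∃ x : D, G'.π x.1 = v then w h.choose else 0
  have hext : ∀ w, R (ext w) = w := by
    intro w; funext x
    have h : ∃ y : D, G.π y.1 = G.π x.1 := ⟨x, rfl⟩
    show (if h : ∃ y : D, G.π y.1 = G.π x.1 then w h.choose else 0) = w x
    rw [dif_pos h]
    congr 1
    exact Subtype.ext (hinj h.choose.2 x.2 h.choose_spec)
  have hext' : ∀ w, R' (ext' w) = w := by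
    intro w; funext x
    have h : ∃ y : D, G'.π y.1 = G'.π x.1 := ⟨x, rfl⟩
    show (if h : ∃ y : D, G'.π y.1 = G'.π x.1 then w h.choose else 0) = w x
    rw [dif_pos h]
    congr 1
    exact Subtype.ext (hinj' h.choose.2 x.2 h.choose_spec)
  set H : (D → ℝ) → ℂ := fun w => F (toC (ext w)) with hH
  have hFH' : ∀ φ', F' (toC φ') = H (R' φ') := by
    intro φ'
    exact (hF (ext (R' φ')) φ' (fun x hx => congrFun (hext (R' φ')) ⟨x, hx⟩)).symm
  have hFH : ∀ φ, F (toC φ) = H (R φ) := by
    intro φ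
    have h1 := hF φ (ext' (R φ)) (fun x hx => (congrFun (hext' (R φ)) ⟨x, hx⟩).symm)
    rw [h1, hFH', hext']
  have hν : (gauss G Γ).map R = (gauss G' Γ').map R' := by
    rw [hR, hR', sp_gauss_marginal Γ hΓ D, sp_gauss_marginal Γ' hΓ' D]
    congr 2
    ext x y
    exact hcov x.1 x.2 y.1 y.2
  unfold conv
  simp only [zero_add, hFH, hFH']
  by_cases hm : AEStronglyMeasurable H ((gauss G Γ).map R)
  · rw [← integral_map hRm.aemeasurable hm, hν, integral_map hRm'.aemeasurable (hν ▸ hm)]
  · rw [integral_non_aestronglyMeasurable, integral_non_aestronglyMeasurable]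
    · intro h
      exact hm (hν ▸ sp_aesm_of_comp _ R' hRm' H h)
    · intro h
      exact hm (sp_aesm_of_comp _ R hRm H h)

end

end Claimed.Agent.R285.RG
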