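import Claimed.Agent.R285.Base.RG

/-!
# ROW 285, package BP-PK-SPACES, leaf L-SP-COV: polynomial kernels on a torus = plane kernels on unwrapped pairs      (architect helper214)

`cov G P = aeval (lap G) P`.  Paper-free.  PLAN (~200 l.):
1. `spLapZ` = the Laplacian of `ℤ²` acting on ALL functions `ℤ² → ℝ` (a linear endomorphism; no summability question).
2. periodic folding is compatible with steps: `sp_fold_add` (`Int.emod` arithmetic; unfold `Geom.π`, `Geom.fold`, `Geom.ι`, rewrite `hG`).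
3. `sp_lap_lift`: `((lap G) *ᵥ f) ∘ π = spLapZ (f ∘ π)`   (expand `Matrix.mulVec`, `lap`; `Finset.sum_comm`, `Finset.sum_ite_eq`).
4. `sp_cov_lift`: the same for `aeval _ P` (induction on `P`: `Polynomial.induction_on'` or `aeval_eq_sum_range` + powers; `Matrix.mulVec_mulVec`).
5. locality `sp_lapZ_pow_local` (induction on `k`, for all `x`), hence `sp_aeval_local`.
6. `sp_cov_plane`: take `f = Pi.single (π y) 1`; `f ∘ π` = indicator of `y + M ℤ²` coincides with `Pi.single y 1` on the box of radius `deg P` around `x` because `|x - y| + deg P < M`.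
The helper statements 2-5 may be changed freely; `sp_cov_plane` and `sp_cov_copy` are the exports (verbatim).
-/

set_option autoImplicit false

namespace Claimed.Agent.R285.RG

open scoped BigOperators
open Polynomial

noncomputable section

/-- the Laplacian of `ℤ²` on all functions -/
def spLapZ : Module.End ℝ (ℤ × ℤ → ℝ) where
  toFun f := fun x => ∑ e : Fin 4, (f x - f (x + dir e))
  map_add' f g := by
    funext x
    simp only [Pi.add_apply, ← Finset.sum_add_distrib]
    exact Finset.sum_congr rfl fun e _ => by ring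
  map_smul' c f := by
    funext x
    simp only [Pi.smul_apply, smul_eq_mul, RingHom.id_apply, Finset.mul_sum]
    exact Finset.sum_congr rfl fun e _ => by ring

theorem sp_fold_val (G : Geom) (hG : G.bc = BC.per) (x : ℤ) : ((G.fold x : ℕ) : ℤ) = x % G.M := by
  obtain ⟨bc, M, hM⟩ := G
  simp only at hG
  subst hG
  have h0 : (0 : ℤ) < M := by exact_mod_cast hM
  show (((x % M).toNat : ℕ) : ℤ) = x % M
  exact Int.toNat_of_nonneg (Int.emod_nonneg x h0.ne')

theorem sp_fold_eq_iff (G : Geom) (hG : G.bc = BC.per) (x y : ℤ) : G.fold x = G.fold y ↔ x % G.M = y % G.M := by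
  rw [← sp_fold_val G hG x, ← sp_fold_val G hG y]
  constructor
  · intro h; rw [h]
  · intro h; exact Fin.ext (by exact_mod_cast h)

theorem sp_fold_add (G : Geom) (hG : G.bc = BC.per) (x e : ℤ × ℤ) : G.π (G.ι (G.π x) + e) = G.π (x + e) := by
  refine Prod.ext ?_ ?_
  · show G.fold (((G.fold x.1 : ℕ) : ℤ) + e.1) = G.fold (x.1 + e.1)
    rw [sp_fold_eq_iff G hG, sp_fold_val G hG, Int.emod_add_emod]
  · show G.fold (((G.fold x.2 : ℕ) : ℤ) + e.2) = G.fold (x.2 + e.2)
    rw [sp_fold_eq_iff G hG, sp_fold_val G hG, Int.emod_add_emod]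

theorem sp_lap_lift (G : Geom) (hG : G.bc = BC.per) (f : G.V → ℝ) (x : ℤ × ℤ) :
    (lap G).mulVec f (G.π x) = spLapZ (G.lift f) x := by
  show ∑ w, lap G (G.π x) w * f w = ∑ e : Fin 4, (G.lift f x - G.lift f (x + dir e))
  simp only [lap, Finset.sum_mul, sub_mul, ite_mul, one_mul, zero_mul]
  rw [Finset.sum_comm]
  refine Finset.sum_congr rfl fun e _ => ?_
  rw [Finset.sum_sub_distrib, Finset.sum_ite_eq, Finset.sum_ite_eq, sp_fold_add G hG]
  simp [Geom.lift]

theorem sp_pow_lift (G : Geom) (hG : G.bc = BC.per) (n : ℕ) (f : G.V → ℝ) :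
    G.lift ((lap G ^ n).mulVec f) = (spLapZ ^ n) (G.lift f) := by
  induction n generalizing f with
  | zero => simp
  | succ n ih =>
    rw [pow_succ, pow_succ, ← Matrix.mulVec_mulVec, ih, Module.End.mul_apply]
    congr 1
    funext x
    exact sp_lap_lift G hG f x

theorem sp_cov_lift (G : Geom) (hG : G.bc = BC.per) (P : ℝ[X]) (f : G.V → ℝ) (x : ℤ × ℤ) :
    (cov G P).mulVec f (G.π x) = (aeval spLapZ P) (G.lift f) x := by
  unfold cov
  rw [Polynomial.aeval_eq_sum_range, Polynomial.aeval_eq_sum_range, Matrix.sum_mulVec, Finset.sum_apply,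
    LinearMap.sum_apply, Finset.sum_apply]
  refine Finset.sum_congr rfl fun n _ => ?_
  rw [Matrix.smul_mulVec, LinearMap.smul_apply, Pi.smul_apply, Pi.smul_apply, ← sp_pow_lift G hG]
  rfl

theorem sp_lapZ_pow_local (k : ℕ) (f f' : ℤ × ℤ → ℝ) (x : ℤ × ℤ)
    (h : ∀ y : ℤ × ℤ, max (y.1 - x.1).natAbs (y.2 - x.2).natAbs ≤ k → f y = f' y) : (spLapZ ^ k) f x = (spLapZ ^ k) f' x := by
  induction k generalizing x with
  | zero =>
    simp only [pow_zero, Module.End.one_apply]
    exact h x (by simp)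
  | succ k ih =>
    rw [pow_succ', Module.End.mul_apply, Module.End.mul_apply]
    show ∑ e : Fin 4, ((spLapZ ^ k) f x - (spLapZ ^ k) f (x + dir e)) = ∑ e : Fin 4, ((spLapZ ^ k) f' x - (spLapZ ^ k) f' (x + dir e))
    refine Finset.sum_congr rfl fun e _ => ?_
    rw [ih x (fun y hy => h y (hy.trans (Nat.le_succ k))), ih (x + dir e) (fun y hy => h y ?_)]
    have hd : ((dir e).1.natAbs ≤ 1) ∧ ((dir e).2.natAbs ≤ 1) := by
      fin_cases e <;> simp [dir]
    simp only [Prod.fst_add, Prod.snd_add] at hy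
    have h1 := le_max_left (y.1 - (x.1 + (dir e).1)).natAbs (y.2 - (x.2 + (dir e).2)).natAbs
    have h2 := le_max_right (y.1 - (x.1 + (dir e).1)).natAbs (y.2 - (x.2 + (dir e).2)).natAbs
    refine max_le ?_ ?_ <;> omega

theorem sp_aeval_local (P : ℝ[X]) (f f' : ℤ × ℤ → ℝ) (x : ℤ × ℤ)
    (h : ∀ y : ℤ × ℤ, max (y.1 - x.1).natAbs (y.2 - x.2).natAbs ≤ P.natDegree → f y = f' y) :
    (aeval spLapZ P) f x = (aeval spLapZ P) f' x := by
  rw [Polynomial.aeval_eq_sum_range, LinearMap.sum_apply, LinearMap.sum_apply, Finset.sum_apply, Finset.sum_apply]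
  refine Finset.sum_congr rfl fun n hn => ?_
  rw [LinearMap.smul_apply, LinearMap.smul_apply, Pi.smul_apply, Pi.smul_apply,
    sp_lapZ_pow_local n f f' x (fun y hy => h y (hy.trans (Nat.lt_succ_iff.1 (Finset.mem_range.1 hn))))]

theorem sp_fold_inj (G : Geom) (hG : G.bc = BC.per) (a b : ℤ) (h : (a - b).natAbs < G.M) (e : G.fold a = G.fold b) : a = b := by
  rw [sp_fold_eq_iff G hG] at e
  have h1 : (G.M : ℤ) ∣ a - b := Int.dvd_of_emod_eq_zero (Int.emod_eq_emod_iff_emod_sub_eq_zero.1 e)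
  have h2 : a - b = 0 := Int.eq_zero_of_abs_lt_dvd h1 (by rw [Int.abs_eq_natAbs]; exact_mod_cast h)
  omega

/-- **EXPORT**: the torus kernel is the plane kernel on unwrapped pairs -/
theorem sp_cov_plane (G : Geom) (hG : G.bc = BC.per) (P : ℝ[X]) (x y : ℤ × ℤ)
    (h : max (x.1 - y.1).natAbs (x.2 - y.2).natAbs + P.natDegree < G.M) :
    cov G P (G.π x) (G.π y) = (aeval spLapZ P) (Pi.single y 1) x := by
  have h0 : cov G P (G.π x) (G.π y) = (cov G P).mulVec (Pi.single (G.π y) 1) (G.π x) := by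
    rw [Matrix.mulVec_single_one]; rfl
  rw [h0, sp_cov_lift G hG]
  refine sp_aeval_local P _ _ x fun z hz => ?_
  have h1 := le_max_left (x.1 - y.1).natAbs (x.2 - y.2).natAbs
  have h2 := le_max_right (x.1 - y.1).natAbs (x.2 - y.2).natAbs
  have h3 := le_max_left (z.1 - x.1).natAbs (z.2 - x.2).natAbs
  have h4 := le_max_right (z.1 - x.1).natAbs (z.2 - x.2).natAbs
  by_cases hzy : z = y
  · subst hzy; simp [Geom.lift]
  · have hne : G.π z ≠ G.π y := by
      intro e
      apply hzy
      have e1 : G.fold z.1 = G.fold y.1 := congrArg Prod.fst e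
      have e2 : G.fold z.2 = G.fold y.2 := congrArg Prod.snd e
      exact Prod.ext (sp_fold_inj G hG _ _ (by omega) e1) (sp_fold_inj G hG _ _ (by omega) e2)
    simp [Geom.lift, hzy, hne]

/-- **EXPORT** (= `B8.cov_unwrap`; implies `cov_copy` of `Base/Spaces.lean`) -/
theorem sp_cov_copy (G G' : Geom) (hG : G.bc = BC.per) (hG' : G'.bc = BC.per) (P : ℝ[X]) (x y : ℤ × ℤ)
    (h : max (x.1 - y.1).natAbs (x.2 - y.2).natAbs + P.natDegree < G.M)
    (h' : max (x.1 - y.1).natAbs (x.2 - y.2).natAbs + P.natDegree < G'.M) :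
    cov G P (G.π x) (G.π y) = cov G' P (G'.π x) (G'.π y) := by
  rw [sp_cov_plane G hG P x y h, sp_cov_plane G' hG' P x y h']

end

end Claimed.Agent.R285.RG
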