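import Mathlib

/-!
# ROW 285, package BP-PK-SPACES: holomorphic maps between complex normed spaces (Mathlib only)      (owner helper214)

Everything follows from the generalised Schwarz lemma of Mathlib (`Complex.dist_le_mul_div_pow_of_mapsTo_ball_of_isLittleO`, valid between arbitrary complex normed spaces):
* `sp_norm_fderiv_le`  : `‖f‖ ≤ M` on `ball c r`  ⟹ `‖f' (c)‖ ≤ 2 M / r`;
* `sp_taylor_le`       : `‖f z - f c - f' (c) (z - c)‖ ≤ 4 M (‖z - c‖ / r)²`  (UNIFORM second order Taylor bound);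
* `sp_differentiableOn_of_tendsto` : limits which are uniform near every point are holomorphic (any dimension);
* `sp_lp_differentiableOn` : locally bounded + coordinatewise holomorphic ⟹ holomorphic into `ℓ^∞`;
* `sp_differentiableOn_codRestrict` : restriction of the codomain to a closed submodule.
-/

set_option autoImplicit false

namespace Claimed.Agent.R285.RG

open Metric Set Filter Topology
open scoped ENNReal

section

variable {E F : Type*} [NormedAddCommGroup E] [NormedSpace ℂ E] [NormedAddCommGroup F] [NormedSpace ℂ F]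

theorem sp_norm_fderiv_le {f : E → F} {c : E} {r M : ℝ} (hr : 0 < r) (hd : DifferentiableOn ℂ f (ball c r))
    (hM : ∀ z ∈ ball c r, ‖f z‖ ≤ M) : ‖fderiv ℂ f c‖ ≤ 2 * M / r := by
  refine Complex.norm_fderiv_le_div_of_mapsTo_ball hd ?_ hr
  intro z hz
  rw [mem_closedBall, dist_eq_norm]
  have h1 := hM z hz
  have h2 := hM c (mem_ball_self hr)
  calc ‖f z - f c‖ ≤ ‖f z‖ + ‖f c‖ := norm_sub_le _ _
    _ ≤ 2 * M := by linarith

theorem sp_taylor_le {f : E → F} {c z : E} {r M : ℝ} (hd : DifferentiableOn ℂ f (ball c r))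
    (hM : ∀ z ∈ ball c r, ‖f z‖ ≤ M) (hz : z ∈ ball c r) :
    ‖f z - f c - fderiv ℂ f c (z - c)‖ ≤ 4 * M * (‖z - c‖ / r) ^ 2 := by
  have hr : 0 < r := nonempty_ball.mp ⟨_, hz⟩
  have hL := sp_norm_fderiv_le hr hd hM
  set L := fderiv ℂ f c with hLdef
  have hfc : HasFDerivAt f L c := (hd.differentiableAt (ball_mem_nhds c hr)).hasFDerivAt
  set g : E → F := fun w => f w - L (w - c) with hg
  have hgd : DifferentiableOn ℂ g (ball c r) := by
    refine hd.sub ?_
    exact (L.differentiable.comp (differentiable_id.sub_const c)).differentiableOn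
  have hgc : g c = f c := by simp [hg]
  have hmaps : MapsTo g (ball c r) (closedBall (g c) (4 * M)) := by
    intro w hw
    rw [mem_closedBall, dist_eq_norm, hgc]
    have h1 := hM w hw
    have h2 := hM c (mem_ball_self hr)
    have h3 : ‖L (w - c)‖ ≤ 2 * M := by
      have hw' : ‖w - c‖ < r := by simpa [dist_eq_norm] using hw
      have hM0 : 0 ≤ M := (norm_nonneg _).trans h2
      calc ‖L (w - c)‖ ≤ ‖L‖ * ‖w - c‖ := L.le_opNorm _
        _ ≤ (2 * M / r) * r := by
            apply mul_le_mul hL hw'.le (norm_nonneg _) (by positivity)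
        _ = 2 * M := by field_simp
    calc ‖f w - L (w - c) - f c‖ ≤ ‖f w‖ + ‖L (w - c)‖ + ‖f c‖ := by
          refine (norm_sub_le _ _).trans ?_
          gcongr
          exact norm_sub_le _ _
      _ ≤ 4 * M := by linarith
  have hn : (g · - g c) =o[𝓝 c] (fun w ↦ ‖w - c‖ ^ 1) := by
    have h := hfc.isLittleO
    simp only [pow_one]
    refine (h.congr_left ?_).norm_right
    intro w
    simp only [hg, sub_self, map_zero, sub_zero]
    abel
  have := Complex.dist_le_mul_div_pow_of_mapsTo_ball_of_isLittleO hgd hmaps hn hz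
  rw [dist_eq_norm, hgc, dist_eq_norm] at this
  calc ‖f z - f c - L (z - c)‖ = ‖g z - f c‖ := by simp only [hg]; congr 1; abel
    _ ≤ _ := this

theorem sp_hasFDerivAt_of_taylor {f : E → F} {c : E} {L : E →L[ℂ] F} {r C : ℝ} (hr : 0 < r)
    (h : ∀ z ∈ ball c r, ‖f z - f c - L (z - c)‖ ≤ C * ‖z - c‖ ^ 2) : HasFDerivAt f L c := by
  rw [hasFDerivAt_iff_isLittleO]
  have h1 : (fun z => f z - f c - L (z - c)) =O[𝓝 c] (fun z => ‖z - c‖ ^ 2) := by
    refine Asymptotics.IsBigO.of_bound C ?_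
    filter_upwards [ball_mem_nhds c hr] with z hz
    simpa using h z hz
  exact h1.trans_isLittleO (Asymptotics.isLittleO_pow_sub_sub c one_lt_two)

/-- limits which are uniform near every point are holomorphic (any dimension) -/
theorem sp_differentiableOn_of_tendsto [CompleteSpace F] {U : Set E} (hU : IsOpen U) (Fn : ℕ → E → F) (f : E → F)
    (hF : ∀ n, DifferentiableOn ℂ (Fn n) U)
    (hlim : ∀ x ∈ U, ∃ t ∈ 𝓝 x, TendstoUniformlyOn Fn f atTop t) : DifferentiableOn ℂ f U := by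
  intro x hx
  obtain ⟨t, ht, hu⟩ := hlim x hx
  rw [Metric.tendstoUniformlyOn_iff] at hu
  obtain ⟨N, hN⟩ := eventually_atTop.1 (hu 1 one_pos)
  have hcont : ContinuousAt (Fn N) x := ((hF N).differentiableAt (hU.mem_nhds hx)).continuousAt
  have hev : ∀ᶠ y in 𝓝 x, ‖Fn N y‖ < ‖Fn N x‖ + 1 :=
    hcont.norm.eventually (gt_mem_nhds (lt_add_one _))
  obtain ⟨r, hr, hball⟩ := Metric.mem_nhds_iff.1 (inter_mem (inter_mem ht (hU.mem_nhds hx)) hev)
  have hbt : ∀ z ∈ ball x r, z ∈ t := fun z hz => (hball hz).1.1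
  have hbU : ball x r ⊆ U := fun z hz => (hball hz).1.2
  set M := ‖Fn N x‖ + 3 with hMdef
  have hM : ∀ n ≥ N, ∀ z ∈ ball x r, ‖Fn n z‖ ≤ M := by
    intro n hn z hz
    have h1 := hN n hn z (hbt z hz)
    have h2 := hN N le_rfl z (hbt z hz)
    have h3 : ‖Fn N z‖ < ‖Fn N x‖ + 1 := (hball hz).2
    rw [dist_eq_norm] at h1 h2
    calc ‖Fn n z‖ = ‖Fn N z + (f z - Fn N z) - (f z - Fn n z)‖ := by congr 1; abel
      _ ≤ ‖Fn N z‖ + ‖f z - Fn N z‖ + ‖f z - Fn n z‖ := by
          refine (norm_sub_le _ _).trans ?_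
          gcongr
          exact norm_add_le _ _
      _ ≤ M := by rw [hMdef]; linarith
  have hd : ∀ n, DifferentiableOn ℂ (Fn n) (ball x r) := fun n => (hF n).mono hbU
  have hdx : ∀ n, DifferentiableAt ℂ (Fn n) x := fun n => (hF n).differentiableAt (hU.mem_nhds hx)
  set L : ℕ → E →L[ℂ] F := fun n => fderiv ℂ (Fn n) x with hLdef
  have hcauchy : CauchySeq L := by
    rw [Metric.cauchySeq_iff']
    intro ε hε
    obtain ⟨N', hN'⟩ := eventually_atTop.1 (hu (ε * r / 8) (by positivity))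
    refine ⟨N', fun n hn => ?_⟩
    have hsub : L n - L N' = fderiv ℂ (fun y => Fn n y - Fn N' y) x := by
      rw [hLdef]
      exact (fderiv_fun_sub (hdx n) (hdx N')).symm
    have hb : ∀ z ∈ ball x r, ‖Fn n z - Fn N' z‖ ≤ ε * r / 4 := by
      intro z hz
      have h1 := hN' n hn z (hbt z hz)
      have h2 := hN' N' le_rfl z (hbt z hz)
      rw [dist_eq_norm] at h1 h2
      calc ‖Fn n z - Fn N' z‖ = ‖(f z - Fn N' z) - (f z - Fn n z)‖ := by congr 1; abel
        _ ≤ ‖f z - Fn N' z‖ + ‖f z - Fn n z‖ := norm_sub_le _ _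
        _ ≤ ε * r / 4 := by linarith
    have := sp_norm_fderiv_le hr ((hd n).sub (hd N')) hb
    rw [dist_eq_norm, hsub]
    calc _ ≤ 2 * (ε * r / 4) / r := this
      _ = ε / 2 := by field_simp; ring
      _ < ε := by linarith
  obtain ⟨L', hL'⟩ := cauchySeq_tendsto_of_complete hcauchy
  have hpt : ∀ z ∈ ball x r, Tendsto (fun n => Fn n z) atTop (𝓝 (f z)) := by
    intro z hz
    rw [Metric.tendsto_atTop]
    intro ε hε
    obtain ⟨N', hN'⟩ := eventually_atTop.1 (hu ε hε)
    exact ⟨N', fun n hn => by rw [dist_comm]; exact hN' n hn z (hbt z hz)⟩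
  have key : ∀ z ∈ ball x r, ‖f z - f x - L' (z - x)‖ ≤ 4 * M / r ^ 2 * ‖z - x‖ ^ 2 := by
    intro z hz
    have h1 : Tendsto (fun n => Fn n z - Fn n x - L n (z - x)) atTop (𝓝 (f z - f x - L' (z - x))) := by
      refine ((hpt z hz).sub (hpt x (mem_ball_self hr))).sub ?_
      exact ((ContinuousLinearMap.apply ℂ F (z - x)).continuous.tendsto L').comp hL'
    refine le_of_tendsto h1.norm ?_
    filter_upwards [eventually_ge_atTop N] with n hn
    have := sp_taylor_le (hd n) (hM n hn) hz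
    calc _ ≤ 4 * M * (‖z - x‖ / r) ^ 2 := this
      _ = _ := by rw [div_pow]; ring
  exact (sp_hasFDerivAt_of_taylor hr key).differentiableAt.differentiableWithinAt

/-- a uniformly bounded family of functionals as a continuous linear map into `ℓ^∞` -/
noncomputable def spToLp {ι : Type*} (L : ι → E →L[ℂ] ℂ) (C : ℝ) (hC0 : 0 ≤ C) (hC : ∀ i, ‖L i‖ ≤ C) :
    E →L[ℂ] lp (fun _ : ι => ℂ) ∞ :=
  LinearMap.mkContinuous
    { toFun := fun h => ⟨fun i => L i h, memℓp_infty ⟨C * ‖h‖, by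
        rintro _ ⟨i, rfl⟩
        exact ((L i).le_opNorm h).trans (mul_le_mul_of_nonneg_right (hC i) (norm_nonneg _))⟩⟩
      map_add' := fun a b => by ext i; simp only [map_add]; rfl
      map_smul' := fun c a => by ext i; simp only [map_smul]; rfl }
    C (fun h => by
      refine lp.norm_le_of_forall_le (mul_nonneg hC0 (norm_nonneg _)) fun i => ?_
      exact ((L i).le_opNorm h).trans (mul_le_mul_of_nonneg_right (hC i) (norm_nonneg _)))

theorem spToLp_apply {ι : Type*} (L : ι → E →L[ℂ] ℂ) (C : ℝ) (hC0 : 0 ≤ C) (hC : ∀ i, ‖L i‖ ≤ C) (h : E) (i : ι) :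
    spToLp L C hC0 hC h i = L i h := rfl

/-- locally bounded + coordinatewise holomorphic ⟹ holomorphic into `ℓ^∞` -/
theorem sp_lp_differentiableOn {ι : Type*} (U : Set E) (hU : IsOpen U) (Φ : E → lp (fun _ : ι => ℂ) ∞)
    (hc : ∀ i, DifferentiableOn ℂ (fun x => Φ x i) U)
    (hb : ∀ x ∈ U, ∃ ε > 0, ∃ M : ℝ, ∀ y ∈ Metric.ball x ε, ‖Φ y‖ ≤ M) : DifferentiableOn ℂ Φ U := by
  intro x hx
  obtain ⟨ε, hε, M, hM⟩ := hb x hx
  obtain ⟨δ, hδ, hδU⟩ := Metric.isOpen_iff.1 hU x hx
  set r := min ε δ with hrdef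
  have hr : 0 < r := lt_min hε hδ
  have hd : ∀ i, DifferentiableOn ℂ (fun y => Φ y i) (ball x r) := fun i =>
    (hc i).mono ((ball_subset_ball (min_le_right _ _)).trans hδU)
  have hMi : ∀ i, ∀ z ∈ ball x r, ‖Φ z i‖ ≤ M := fun i z hz =>
    (lp.norm_apply_le_norm ENNReal.top_ne_zero (Φ z) i).trans (hM z (ball_subset_ball (min_le_left _ _) hz))
  have hM0 : 0 ≤ M := (norm_nonneg _).trans (hM x (mem_ball_self hε))
  set L := spToLp (fun i => fderiv ℂ (fun y => Φ y i) x) (2 * M / r) (by positivity)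
    (fun i => sp_norm_fderiv_le hr (hd i) (hMi i)) with hL
  have key : ∀ z ∈ ball x r, ‖Φ z - Φ x - L (z - x)‖ ≤ 4 * M / r ^ 2 * ‖z - x‖ ^ 2 := by
    intro z hz
    refine lp.norm_le_of_forall_le (by positivity) fun i => ?_
    have := sp_taylor_le (hd i) (hMi i) hz
    calc ‖(Φ z - Φ x - L (z - x)) i‖ = ‖Φ z i - Φ x i - fderiv ℂ (fun y => Φ y i) x (z - x)‖ := rfl
      _ ≤ 4 * M * (‖z - x‖ / r) ^ 2 := this
      _ = _ := by rw [div_pow]; ring
  exact (sp_hasFDerivAt_of_taylor hr key).differentiableAt.differentiableWithinAt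

/-- restriction of the codomain to a closed submodule -/
theorem sp_differentiableOn_codRestrict (S : Submodule ℂ F) (hS : IsClosed (S : Set F)) (U : Set E) (hU : IsOpen U)
    (Φ : E → S) (h : DifferentiableOn ℂ (fun x => (Φ x : F)) U) : DifferentiableOn ℂ Φ U := by
  intro x hx
  have hx' : HasFDerivAt (fun x => (Φ x : F)) (fderiv ℂ (fun x => (Φ x : F)) x) x :=
    (h.differentiableAt (hU.mem_nhds hx)).hasFDerivAt
  set L := fderiv ℂ (fun x => (Φ x : F)) x with hL
  have hmem : ∀ v, L v ∈ S := by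
    intro v
    have hl := hx'.hasLineDerivAt v
    have ht : Tendsto (fun t : ℂ => t⁻¹ • ((Φ (x + t • v) : F) - (Φ x : F))) (𝓝[≠] 0) (𝓝 (L v)) := by
      have := hl.tendsto_slope_zero
      simpa using this
    refine hS.mem_of_tendsto ht (Eventually.of_forall fun t => ?_)
    exact S.smul_mem _ (S.sub_mem (Φ _).2 (Φ x).2)
  have hd : HasFDerivAt Φ (L.codRestrict S hmem) x := by
    rw [hasFDerivAt_iff_isLittleO] at hx' ⊢
    refine Asymptotics.IsLittleO.of_norm_left (hx'.norm_left.congr_left fun y => ?_)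
    rfl
  exact hd.differentiableAt.differentiableWithinAt

end

end Claimed.Agent.R285.RG
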