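import Claimed.Agent.R285.Base.RG

/-!
# ROW 285, package BP-PK-SPACES: `tnorm`, strips, polydiscs; the classes of activities are vector spaces      (owner helper214)
-/

set_option autoImplicit false

namespace Claimed.Agent.R285.RG

open scoped BigOperators ENNReal NNReal

noncomputable section

variable {G : Geom}

/-! ## 1. differences commute with additive maps -/

theorem sp_foldr_map {α β : Type} [AddGroup α] [AddGroup β] (φ : α →+ β) (l : List (Fin 4)) (f : ℤ × ℤ → α) (x : ℤ × ℤ) :
    l.foldr (fun i g => dif (dir i) g) (fun y => φ (f y)) x = φ (l.foldr (fun i g => dif (dir i) g) f x) := by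
  induction l generalizing x with
  | nil => rfl
  | cons i l ih =>
    simp only [List.foldr_cons, dif, ih, map_sub]

theorem sp_difs_map {α β : Type} [AddGroup α] [AddGroup β] (φ : α →+ β) {r : ℕ} (a : Fin r → Fin 4) (f : ℤ × ℤ → α)
    (x : ℤ × ℤ) : difs a (fun y => φ (f y)) x = φ (difs a f x) :=
  sp_foldr_map φ _ f x

theorem sp_nab_map_le {α β : Type} [NormedAddCommGroup α] [NormedAddCommGroup β] (φ : α →+ β) (hφ : ∀ a, ‖φ a‖₊ ≤ ‖a‖₊)
    (r : ℕ) (f : ℤ × ℤ → α) (x : ℤ × ℤ) : nab r (fun y => φ (f y)) x ≤ nab r f x := by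
  unfold nab
  refine Finset.sup_mono_fun fun a _ => ?_
  rw [sp_difs_map]
  exact hφ _

theorem sp_nab_map_eq {α β : Type} [NormedAddCommGroup α] [NormedAddCommGroup β] (φ : α →+ β) (hφ : ∀ a, ‖φ a‖₊ = ‖a‖₊)
    (r : ℕ) (f : ℤ × ℤ → α) (x : ℤ × ℤ) : nab r (fun y => φ (f y)) x = nab r f x := by
  unfold nab
  refine Finset.sup_congr rfl fun a _ => ?_
  rw [sp_difs_map]
  exact hφ _

theorem sp_tnorm_map_le {α β : Type} [NormedAddCommGroup α] [NormedAddCommGroup β] (φ : α →+ β) (hφ : ∀ a, ‖φ a‖₊ ≤ ‖a‖₊)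
    (g : Grid G) (X : Finset g.I) (f : G.V → α) : tnorm g X (fun v => φ (f v)) ≤ tnorm g X f := by
  unfold tnorm
  refine Finset.sup_mono_fun fun v _ => ?_
  refine max_le_max (hφ _) (max_le_max ?_ ?_)
  · exact mul_le_mul_right (sp_nab_map_le φ hφ 1 (G.lift f) (G.ι v)) _
  · exact mul_le_mul_right (sp_nab_map_le φ hφ 2 (G.lift f) (G.ι v)) _

theorem sp_tnorm_map_eq {α β : Type} [NormedAddCommGroup α] [NormedAddCommGroup β] (φ : α →+ β) (hφ : ∀ a, ‖φ a‖₊ = ‖a‖₊)
    (g : Grid G) (X : Finset g.I) (f : G.V → α) : tnorm g X (fun v => φ (f v)) = tnorm g X f := by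
  unfold tnorm
  refine Finset.sup_congr rfl fun v _ => ?_
  have h1 := sp_nab_map_eq φ hφ 1 (G.lift f) (G.ι v)
  have h2 := sp_nab_map_eq φ hφ 2 (G.lift f) (G.ι v)
  have e : G.lift (fun v => φ (f v)) = fun y => φ (G.lift f y) := rfl
  rw [e, h1, h2, hφ]

theorem sp_tnorm_im_le (g : Grid G) (X : Finset g.I) (f : G.V → ℂ) : tnorm g X (fun v => (f v).im) ≤ tnorm g X f :=
  sp_tnorm_map_le Complex.imAddGroupHom (fun a => by
    rw [← NNReal.coe_le_coe]; exact Complex.abs_im_le_norm a) g X f

/-- `r ↦ r * I` as an additive map -/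
def spMulI : ℝ →+ ℂ where
  toFun r := (r : ℂ) * Complex.I
  map_zero' := by simp
  map_add' a b := by push_cast; ring

theorem sp_tnorm_mulI (g : Grid G) (X : Finset g.I) (r : G.V → ℝ) :
    tnorm g X (fun v => ((r v : ℝ) : ℂ) * Complex.I) = tnorm g X r :=
  sp_tnorm_map_eq spMulI (fun a => by
    rw [← NNReal.coe_inj]; simp [spMulI]) g X r

theorem sp_tnorm_neg {α : Type} [NormedAddCommGroup α] (g : Grid G) (X : Finset g.I) (f : G.V → α) :
    tnorm g X (fun v => -f v) = tnorm g X f :=
  sp_tnorm_map_eq (-AddMonoidHom.id α) (fun a => by simp) g X f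

/-! ## 2. continuity -/

theorem sp_continuous_foldr {α : Type} [NormedAddCommGroup α] (l : List (Fin 4)) (x : ℤ × ℤ) :
    Continuous fun f : G.V → α => l.foldr (fun i g => dif (dir i) g) (G.lift f) x := by
  induction l generalizing x with
  | nil => exact continuous_apply _
  | cons i l ih =>
    simp only [List.foldr_cons, dif]
    exact (ih _).sub (ih _)

theorem sp_continuous_nab {α : Type} [NormedAddCommGroup α] (r : ℕ) (x : ℤ × ℤ) :
    Continuous fun f : G.V → α => nab r (G.lift f) x := by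
  unfold nab
  refine Continuous.finset_sup_apply fun a _ => ?_
  exact (sp_continuous_foldr _ x).nnnorm

theorem sp_continuous_tnorm {α : Type} [NormedAddCommGroup α] (g : Grid G) (X : Finset g.I) :
    Continuous fun f : G.V → α => tnorm g X f := by
  unfold tnorm
  refine Continuous.finset_sup_apply fun v _ => ?_
  refine (continuous_apply v).nnnorm.max (Continuous.max ?_ ?_)
  · exact continuous_const.mul (sp_continuous_nab 1 _)
  · exact continuous_const.mul (sp_continuous_nab 2 _)

/-! ## 3. strips and polydiscs -/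

theorem sp_isOpen_strip (h : ℝ≥0) (g : Grid G) (X : Finset g.I) : IsOpen (strip h g X) := by
  have h1 : Continuous fun z : G.V → ℂ => tnorm g X (fun v => (z v).im) :=
    (sp_continuous_tnorm g X).comp (continuous_pi fun v => Complex.continuous_im.comp (continuous_apply v))
  exact isOpen_lt h1 continuous_const

/-- the open polydisc of radius `h` around the real field `φ` -/
def spPoly (h : ℝ≥0) (g : Grid G) (X : Finset g.I) (φ : G.V → ℝ) : Set (G.V → ℂ) := {z | tnorm g X (z - toC φ) < h}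

theorem sp_isOpen_poly (h : ℝ≥0) (g : Grid G) (X : Finset g.I) (φ : G.V → ℝ) : IsOpen (spPoly h g X φ) := by
  have h1 : Continuous fun z : G.V → ℂ => tnorm g X (z - toC φ) :=
    (sp_continuous_tnorm g X).comp (continuous_id.sub continuous_const)
  exact isOpen_lt h1 continuous_const

theorem sp_mem_strip_add {h : ℝ≥0} {g : Grid G} {X : Finset g.I} {f : G.V → ℂ} (hf : tnorm g X f < h) (φ : G.V → ℝ) :
    toC φ + f ∈ strip h g X := by
  have e : (fun v => ((toC φ + f) v).im) = fun v => (f v).im := by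
    funext v; simp [toC]
  show tnorm g X (fun v => ((toC φ + f) v).im) < h
  rw [e]
  exact (sp_tnorm_im_le g X f).trans_lt hf

theorem sp_poly_subset_strip (h : ℝ≥0) (g : Grid G) (X : Finset g.I) (φ : G.V → ℝ) : spPoly h g X φ ⊆ strip h g X := by
  intro z hz
  have := sp_mem_strip_add (show tnorm g X (z - toC φ) < h from hz) φ
  simpa using this

/-- real part of a field -/
def spRe (z : G.V → ℂ) : G.V → ℝ := fun v => (z v).re
/-- imaginary part of a field, as a complex direction -/
def spIm (z : G.V → ℂ) : G.V → ℂ := fun v => ((z v).im : ℂ) * Complex.I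

theorem sp_decomp (z : G.V → ℂ) : toC (spRe z) + spIm z = z := by
  funext v
  simp [toC, spRe, spIm, Complex.re_add_im]

theorem sp_tnorm_spIm (g : Grid G) (X : Finset g.I) (z : G.V → ℂ) : tnorm g X (spIm z) = tnorm g X (fun v => (z v).im) :=
  sp_tnorm_mulI g X _

theorem sp_mem_strip_iff {h : ℝ≥0} {g : Grid G} {X : Finset g.I} {z : G.V → ℂ} : z ∈ strip h g X ↔ tnorm g X (spIm z) < h := by
  rw [sp_tnorm_spIm]; rfl

theorem sp_mem_poly_self {h : ℝ≥0} {g : Grid G} {X : Finset g.I} {z : G.V → ℂ} (hz : z ∈ strip h g X) :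
    z ∈ spPoly h g X (spRe z) := by
  show tnorm g X (z - toC (spRe z)) < h
  have : z - toC (spRe z) = spIm z := by
    have h := sp_decomp z
    exact sub_eq_of_eq_add' h.symm
  rw [this]
  exact sp_mem_strip_iff.1 hz

theorem sp_neg_mem_strip {h : ℝ≥0} {g : Grid G} {X : Finset g.I} {z : G.V → ℂ} (hz : z ∈ strip h g X) : -z ∈ strip h g X := by
  show tnorm g X (fun v => ((-z) v).im) < h
  have e : (fun v => ((-z) v).im) = fun v => -(z v).im := by funext v; simp
  rw [e, sp_tnorm_neg]
  exact hz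

theorem sp_add_real_mem_strip {h : ℝ≥0} {g : Grid G} {X : Finset g.I} {z : G.V → ℂ} (hz : z ∈ strip h g X) (c : ℝ) :
    (fun v => z v + (c : ℂ)) ∈ strip h g X := by
  show tnorm g X (fun v => (z v + (c : ℂ)).im) < h
  have e : (fun v => (z v + (c : ℂ)).im) = fun v => (z v).im := by funext v; simp
  rw [e]
  exact hz

/-! ## 4. the classes are vector spaces -/

theorem LocalFn.sp_zero (p : Par) (col : ℕ) (g : Grid G) (X : Finset g.I) : LocalFn p col g X 0 where
  hol := differentiableOn_const (c := (0 : ℂ))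
  loc := fun _ _ _ _ _ => rfl
  per := fun _ _ => rfl

theorem LocalFn.sp_add {p : Par} {col : ℕ} {g : Grid G} {X : Finset g.I} {F F' : Fn G} (h : LocalFn p col g X F)
    (h' : LocalFn p col g X F') : LocalFn p col g X (F + F') where
  hol := h.hol.add h'.hol
  loc := fun z hz z' hz' e => by
    simp only [Pi.add_apply, h.loc z hz z' hz' e, h'.loc z hz z' hz' e]
  per := fun z hz => by
    simp only [Pi.add_apply, h.per z hz, h'.per z hz]

theorem LocalFn.sp_smul {p : Par} {col : ℕ} {g : Grid G} {X : Finset g.I} {F : Fn G} (c : ℂ) (h : LocalFn p col g X F) :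
    LocalFn p col g X (c • F) where
  hol := h.hol.const_smul c
  loc := fun z hz z' hz' e => by
    simp only [Pi.smul_apply, h.loc z hz z' hz' e]
  per := fun z hz => by
    simp only [Pi.smul_apply, h.per z hz]

theorem Act.Ok.sp_zero (p : Par) (col R : ℕ) (g : Grid G) : (0 : Act g).Ok p col R where
  fn := fun X => LocalFn.sp_zero p col g X
  poly := fun _ _ => rfl

theorem Act.Ok.sp_add {p : Par} {col R : ℕ} {g : Grid G} {K K' : Act g} (h : K.Ok p col R) (h' : K'.Ok p col R) :
    (K + K').Ok p col R where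
  fn := fun X => (h.fn X).sp_add (h'.fn X)
  poly := fun X hX => by
    show K X + K' X = 0
    rw [h.poly X hX, h'.poly X hX, add_zero]

theorem Act.Ok.sp_smul {p : Par} {col R : ℕ} {g : Grid G} {K : Act g} (c : ℂ) (h : K.Ok p col R) : (c • K).Ok p col R where
  fn := fun X => (h.fn X).sp_smul c
  poly := fun X hX => by
    show c • K X = 0
    rw [h.poly X hX, smul_zero]

theorem Act.Even.sp_zero (h0 : ℝ≥0) (g : Grid G) : (0 : Act g).Even h0 := fun _ _ _ => rfl

theorem Act.Even.sp_add {h0 : ℝ≥0} {g : Grid G} {K K' : Act g} (h : K.Even h0) (h' : K'.Even h0) : (K + K').Even h0 :=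
  fun X z hz => by
    show K X (-z) + K' X (-z) = K X z + K' X z
    rw [h X z hz, h' X z hz]

theorem Act.Even.sp_smul {h0 : ℝ≥0} {g : Grid G} {K : Act g} (c : ℂ) (h : K.Even h0) : (c • K).Even h0 :=
  fun X z hz => by
    show c • K X (-z) = c • K X z
    rw [h X z hz]

theorem Act.Sym.sp_zero (h0 : ℝ≥0) (g gs : Grid G) : (0 : Act g).Sym h0 gs := fun _ _ _ _ _ _ => rfl

theorem Act.Sym.sp_add {h0 : ℝ≥0} {g gs : Grid G} {K K' : Act g} (h : K.Sym h0 gs) (h' : K'.Sym h0 gs) : (K + K').Sym h0 gs :=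
  fun s hs X z hz hz' => by
    show K _ _ + K' _ _ = K X z + K' X z
    rw [h s hs X z hz hz', h' s hs X z hz hz']

theorem Act.Sym.sp_smul {h0 : ℝ≥0} {g gs : Grid G} {K : Act g} (c : ℂ) (h : K.Sym h0 gs) : (c • K).Sym h0 gs :=
  fun s hs X z hz hz' => by
    show c • K _ _ = c • K X z
    rw [h s hs X z hz hz']

end

end Claimed.Agent.R285.RG
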