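import Claimed.Agent.R285.Sp.Dict

/-!
# ROW 285, package BP-PK-SPACES: the spaces of activities are closed; dictionary; components of the bulk space      (owner helper214)
-/

set_option autoImplicit false

namespace Claimed.Agent.R285.RG

open scoped BigOperators ENNReal NNReal
open Filter Topology

noncomputable section

variable {G : Geom}

theorem sp_actSp_isClosed (p : Par) (hA : 0 < p.A) (col R : ℕ) (g gs : Grid G) (V : Extra g) :
    IsClosed (ActSp p col R g gs V : Set (Amb (Idx g))) := by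
  refine IsSeqClosed.isClosed fun an a han hlim => ?_
  change ∀ n, ∃ K : Act g, K.Cls p col R gs ∧ ∀ i, an n i = ev p g V K i at han
  choose Kn hK hev using han
  obtain ⟨h1, h2, h3⟩ := sp_limit p hA g V an a Kn hev (fun n X => ((hK n).ok.fn X).hol) hlim
  exact ⟨Amb.act p g V a, sp_cls_of_tendsto Kn _ hK h3 h1 (fun X z hz => sp_act_neg p g V a X z hz), h2⟩

theorem sp_actSp0_isClosed (p : Par) (hA : 0 < p.A) (col R : ℕ) (g : Grid G) (V : Extra g) :
    IsClosed (ActSp0 p col R g V : Set (Amb (Idx g))) := by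
  refine IsSeqClosed.isClosed fun an a han hlim => ?_
  change ∀ n, ∃ K : Act g, K.Ok p col R ∧ ∀ i, an n i = ev p g V K i at han
  choose Kn hK hev using han
  obtain ⟨h1, h2, h3⟩ := sp_limit p hA g V an a Kn hev (fun n X => ((hK n).fn X).hol) hlim
  exact ⟨Amb.act p g V a, sp_ok_of_tendsto Kn _ hK h3 h1 (fun X z hz => sp_act_neg p g V a X z hz), h2⟩

theorem sp_actSp_le (p : Par) (col R : ℕ) (g gs : Grid G) (V : Extra g) : ActSp p col R g gs V ≤ ActSp0 p col R g V := by
  rintro a ⟨K, hK, ha⟩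
  exact ⟨K, hK.ok, ha⟩

/-- the canonical representative of a point which is represented by `K` -/
theorem sp_act_cls (p : Par) (hA : 0 < p.A) (col R : ℕ) (g gs : Grid G) (V : Extra g) (a : Amb (Idx g)) (K : Act g)
    (hK : K.Cls p col R gs) (ha : ∀ i, a i = ev p g V K i) : (Amb.act p g V a).Cls p col R gs := by
  have e := sp_act_of_ev p hA g V a K ha
  refine sp_cls_of_tendsto (fun _ => K) _ (fun _ => hK) (fun X => ?_) (fun X z hz => ?_) (fun X z hz => sp_act_neg p g V a X z hz)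
  · exact ((hK.ok.fn X).hol).congr fun z hz => e X z hz
  · rw [e X z hz]; exact tendsto_const_nhds

theorem sp_act_ok (p : Par) (hA : 0 < p.A) (col R : ℕ) (g : Grid G) (V : Extra g) (a : Amb (Idx g)) (K : Act g)
    (hK : K.Ok p col R) (ha : ∀ i, a i = ev p g V K i) : (Amb.act p g V a).Ok p col R := by
  have e := sp_act_of_ev p hA g V a K ha
  refine sp_ok_of_tendsto (fun _ => K) _ (fun _ => hK) (fun X => ?_) (fun X z hz => ?_) (fun X z hz => sp_act_neg p g V a X z hz)
  · exact ((hK.fn X).hol).congr fun z hz => e X z hz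
  · rw [e X z hz]; exact tendsto_const_nhds

theorem sp_ev_act (p : Par) (hA : 0 < p.A) (g : Grid G) (V : Extra g) (a : Amb (Idx g)) (K : Act g)
    (ha : ∀ i, a i = ev p g V K i) (i : Idx g) : a i = ev p g V (Amb.act p g V a) i := by
  rw [ha i]
  exact sp_ev_congr p g V _ _ (fun X z hz => (sp_act_of_ev p hA g V a K ha X z hz).symm) i

/-- dictionary 1 -/
theorem sp_actSp_act (p : Par) (hA : 0 < p.A) (col R : ℕ) (g gs : Grid G) (V : Extra g) (a : ActSp p col R g gs V) :
    (Amb.act p g V a.1).Cls p col R gs ∧ (∀ i, a.1 i = ev p g V (Amb.act p g V a.1) i) ∧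
      actNorm p g V (Amb.act p g V a.1) = ENNReal.ofReal ‖a‖ := by
  obtain ⟨K, hK, ha⟩ := a.2
  have h2 := sp_ev_act p hA g V a.1 K ha
  exact ⟨sp_act_cls p hA col R g gs V a.1 K hK ha, h2, sp_actNorm_eq p hA g V a.1 _ h2⟩

/-- weighted evaluations of an activity of finite norm are bounded -/
theorem sp_ev_le (p : Par) (hA : 0 < p.A) (g : Grid G) (V : Extra g) (K : Act g) (hfin : actNorm p g V K ≠ ⊤) (i : Idx g) :
    ‖ev p g V K i‖ ≤ (actNorm p g V K).toReal := by
  obtain ⟨X, φ, f⟩ := i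
  by_cases hf : tnorm g X f < p.h0
  · rw [← ENNReal.ofReal_le_iff_le_toReal hfin, sp_ev_pos p g V K X φ f hf, ← sp_term p hA]
    unfold actNorm fnSize ptNorm
    refine le_iSup_of_le X (mul_le_mul_right (le_iSup_of_le φ (ENNReal.div_le_div_right ?_ _)) _)
    exact le_iSup_of_le (⟨f, hf⟩ : {f : G.V → ℂ // tnorm g X f < p.h0}) le_rfl
  · rw [sp_ev_neg p g V K X φ f hf, norm_zero]
    exact ENNReal.toReal_nonneg

/-- dictionary 2 -/
theorem sp_actSp_mk (p : Par) (hA : 0 < p.A) (col R : ℕ) (g gs : Grid G) (V : Extra g) (K : Act g) (hK : K.Cls p col R gs)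
    (hfin : actNorm p g V K ≠ ⊤) :
    ∃ a : ActSp p col R g gs V, (∀ i, a.1 i = ev p g V K i) ∧ ‖a‖ = (actNorm p g V K).toReal ∧
      ∀ X, ∀ z ∈ strip p.h0 g X, Amb.act p g V a.1 X z = K X z := by
  have hmem : Memℓp (fun i => ev p g V K i) ∞ := memℓp_infty ⟨(actNorm p g V K).toReal, by
    rintro _ ⟨i, rfl⟩
    exact sp_ev_le p hA g V K hfin i⟩
  set a0 : Amb (Idx g) := ⟨fun i => ev p g V K i, hmem⟩ with ha0
  have hev : ∀ i, a0 i = ev p g V K i := fun _ => rfl
  refine ⟨⟨a0, K, hK, hev⟩, hev, ?_, sp_act_of_ev p hA g V a0 K hev⟩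
  have := sp_actNorm_eq p hA g V a0 K hev
  rw [this, ENNReal.toReal_ofReal (norm_nonneg _)]
  rfl

/-! ## restriction of the index set -/

/-- pull-back along a map of index sets -/
def spPull {ι κ : Type} (e : ι → κ) : Amb κ →L[ℂ] Amb ι :=
  LinearMap.mkContinuous
    { toFun := fun a => ⟨fun x => a (e x), memℓp_infty ⟨‖a‖, by
        rintro _ ⟨x, rfl⟩
        exact lp.norm_apply_le_norm ENNReal.top_ne_zero a _⟩⟩
      map_add' := fun _ _ => rfl
      map_smul' := fun _ _ => rfl }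
    1 (fun a => by
      rw [one_mul]
      exact lp.norm_le_of_forall_le (norm_nonneg _) fun x => lp.norm_apply_le_norm ENNReal.top_ne_zero a _)

theorem spPull_apply {ι κ : Type} (e : ι → κ) (a : Amb κ) (x : ι) : spPull e a x = a (e x) := rfl

theorem spPull_norm_le {ι κ : Type} (e : ι → κ) (a : Amb κ) : ‖spPull e a‖ ≤ ‖a‖ :=
  lp.norm_le_of_forall_le (norm_nonneg _) fun _ => lp.norm_apply_le_norm ENNReal.top_ne_zero a _

theorem sp_bulkSp_isClosed (p : Par) (hA : 0 < p.A) (col R c0 : ℕ) {ι : Type} (F : ι → Lvl) :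
    IsClosed (BulkSp p col R c0 F : Set (Amb (FIdx F))) := by
  refine IsSeqClosed.isClosed fun an a han hlim => ?_
  change ∀ n, ∃ K : ∀ i, Act (F i).g, (∀ i, (K i).Cls p col R (F i).gs) ∧ (∀ i X, ¬ (F i).g.Unwr c0 X → K i X = 0) ∧
    (∀ i i', Copy p.h0 c0 (F i).g (F i').g (K i) (K i')) ∧ ∀ i x, an n ⟨i, x⟩ = ev p (F i).g (F i).V (K i) x at han
  choose Kn hK hU hC hev using han
  have key := fun i : ι => sp_limit p hA (F i).g (F i).V (fun n => spPull (Sigma.mk i) (an n)) (spPull (Sigma.mk i) a)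
    (fun n => Kn n i) (fun n x => hev n i x) (fun n X => (((hK n i).ok).fn X).hol)
    (((spPull (Sigma.mk i)).continuous.tendsto a).comp hlim)
  refine ⟨fun i => Amb.act p (F i).g (F i).V (spPull (Sigma.mk i) a), fun i => ?_, fun i X hX => ?_, fun i i' => ?_, fun i x => ?_⟩
  · exact sp_cls_of_tendsto (fun n => Kn n i) _ (fun n => hK n i) (key i).2.2 (key i).1 (fun X z hz => sp_act_neg _ _ _ _ X z hz)
  · funext z
    by_cases hz : z ∈ strip p.h0 (F i).g X
    · refine tendsto_nhds_unique ((key i).1 X z hz) ?_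
      have : (fun n => Kn n i X z) = fun _ => (0 : ℂ) := funext fun n => by rw [hU n i X hX]; rfl
      rw [this]
      exact tendsto_const_nhds
    · exact sp_act_neg _ _ _ _ X z hz
  · exact sp_copy_of_tendsto (fun n => Kn n i) (fun n => Kn n i') _ _ (fun n => hC n i i') (key i).1 (key i').1
  · exact (key i).2.1 x

/-- the component on the torus `i`: a contraction `BulkSp → ActSp` -/
theorem sp_bulkSp_comp (p : Par) (col R c0 : ℕ) {ι : Type} (F : ι → Lvl) (i : ι) :
    ∃ T : BulkSp p col R c0 F →L[ℂ] ActSp p col R (F i).g (F i).gs (F i).V, ‖T‖ ≤ 1 ∧ ∀ a x, (T a).1 x = a.1 ⟨i, x⟩ := by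
  refine ⟨((spPull (Sigma.mk i)).comp (BulkSp p col R c0 F).subtypeL).codRestrict _ ?_, ?_, fun _ _ => rfl⟩
  · rintro ⟨a, K, hK, -, -, hev⟩
    exact ⟨K i, hK i, fun x => hev i x⟩
  · refine ContinuousLinearMap.opNorm_le_bound _ zero_le_one fun a => ?_
    rw [one_mul]
    exact spPull_norm_le (Sigma.mk i) a.1

/-- the norm of a family is the supremum of the norms of its components -/
theorem sp_bulkSp_norm (p : Par) (col R c0 : ℕ) {ι : Type} (F : ι → Lvl) (a : BulkSp p col R c0 F) (C : ℝ) (hC : 0 ≤ C) :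
    ‖a‖ ≤ C ↔ ∀ i x, ‖a.1 ⟨i, x⟩‖ ≤ C := by
  constructor
  · intro h i x
    exact (lp.norm_apply_le_norm ENNReal.top_ne_zero a.1 _).trans h
  · intro h
    exact lp.norm_le_of_forall_le hC fun ⟨i, x⟩ => h i x

end

end Claimed.Agent.R285.RG
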