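import Claimed.Agent.R285.Sp.Basic

/-!
# ROW 285, CORE DEFS 2b: the BANACH SPACES of activities: DEFINITIONS      (design helper165, proofs helper214)

The documentation is in `R285/Base/Spaces.lean` (which imports this file and all the proofs `R285/Sp/*.lean`).  Nothing is sorried here.
-/

set_option autoImplicit false

namespace Claimed.Agent.R285.RG

open scoped BigOperators ENNReal NNReal
open MeasureTheory

noncomputable section

variable {G : Geom}

/-! ## 1. One torus (or free square) -/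

/-- evaluation points `(X, φ, f)` -/
abbrev Idx (g : Grid G) : Type := Finset g.I × (G.V → ℝ) × (G.V → ℂ)

open Classical in
/-- the weighted evaluation -/
def ev (p : Par) (g : Grid G) (V : Extra g) (K : Act g) (i : Idx g) : ℂ :=
  if tnorm g i.1 i.2.2 < p.h0 then ((p.A ^ i.1.card / Wt g p.δ p.κ V i.1 i.2.1 : ℝ) : ℂ) * K i.1 (toC i.2.1 + i.2.2) else 0

theorem sp_ev_zero (p : Par) (g : Grid G) (V : Extra g) (i : Idx g) : ev p g V 0 i = 0 := by
  unfold ev; split_ifs <;> simp

theorem sp_ev_add (p : Par) (g : Grid G) (V : Extra g) (K K' : Act g) (i : Idx g) :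
    ev p g V (K + K') i = ev p g V K i + ev p g V K' i := by
  unfold ev; split_ifs
  · simp only [Pi.add_apply, mul_add]
  · simp

theorem sp_ev_smul (p : Par) (g : Grid G) (V : Extra g) (c : ℂ) (K : Act g) (i : Idx g) :
    ev p g V (c • K) i = c * ev p g V K i := by
  unfold ev; split_ifs
  · simp only [Pi.smul_apply, smul_eq_mul]; ring
  · simp

/-- the class of activities of [E] (3.5): support, period, holomorphy; evenness; lattice symmetries compatible with blocks and cells.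
For spaces WITHOUT symmetry conditions (labelled / boundary / defect activities) use `Act.Ok` alone: `ActSp0`. -/
structure Act.Cls (p : Par) (col R : ℕ) {g : Grid G} (gs : Grid G) (K : Act g) : Prop where
  ok : K.Ok p col R
  even : K.Even p.h0
  sym : K.Sym p.h0 gs

theorem Act.Cls.sp_zero (p : Par) (col R : ℕ) (g gs : Grid G) : (0 : Act g).Cls p col R gs :=
  ⟨Act.Ok.sp_zero p col R g, Act.Even.sp_zero p.h0 g, Act.Sym.sp_zero p.h0 g gs⟩

theorem Act.Cls.sp_add {p : Par} {col R : ℕ} {g gs : Grid G} {K K' : Act g} (h : K.Cls p col R gs) (h' : K'.Cls p col R gs) :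
    (K + K').Cls p col R gs :=
  ⟨h.ok.sp_add h'.ok, h.even.sp_add h'.even, h.sym.sp_add h'.sym⟩

theorem Act.Cls.sp_smul {p : Par} {col R : ℕ} {g gs : Grid G} {K : Act g} (c : ℂ) (h : K.Cls p col R gs) :
    (c • K).Cls p col R gs :=
  ⟨h.ok.sp_smul c, h.even.sp_smul c, h.sym.sp_smul c⟩

/-- the ambient space -/
abbrev Amb (ι : Type) : Type := lp (fun _ : ι => ℂ) ∞

/-- **the space of activities on one torus** -/
def ActSp (p : Par) (col R : ℕ) (g gs : Grid G) (V : Extra g) : Submodule ℂ (Amb (Idx g)) where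
  carrier := {a | ∃ K : Act g, K.Cls p col R gs ∧ ∀ i, a i = ev p g V K i}
  add_mem' := by
    rintro a b ⟨K, hK, ha⟩ ⟨K', hK', hb⟩
    exact ⟨K + K', hK.sp_add hK', fun i => by rw [sp_ev_add, ← ha, ← hb]; rfl⟩
  zero_mem' := ⟨0, Act.Cls.sp_zero p col R g gs, fun i => by rw [sp_ev_zero]; rfl⟩
  smul_mem' := by
    rintro c a ⟨K, hK, ha⟩
    exact ⟨c • K, hK.sp_smul c, fun i => by rw [sp_ev_smul, ← ha]; rfl⟩

/-- the space of activities without symmetry conditions -/
def ActSp0 (p : Par) (col R : ℕ) (g : Grid G) (V : Extra g) : Submodule ℂ (Amb (Idx g)) where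
  carrier := {a | ∃ K : Act g, K.Ok p col R ∧ ∀ i, a i = ev p g V K i}
  add_mem' := by
    rintro a b ⟨K, hK, ha⟩ ⟨K', hK', hb⟩
    exact ⟨K + K', hK.sp_add hK', fun i => by rw [sp_ev_add, ← ha, ← hb]; rfl⟩
  zero_mem' := ⟨0, Act.Ok.sp_zero p col R g, fun i => by rw [sp_ev_zero]; rfl⟩
  smul_mem' := by
    rintro c a ⟨K, hK, ha⟩
    exact ⟨c • K, hK.sp_smul c, fun i => by rw [sp_ev_smul, ← ha]; rfl⟩

open Classical in
/-- the activity of a point of the ambient space (junk `0` outside the strips) -/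
def Amb.act (p : Par) (g : Grid G) (V : Extra g) (a : Amb (Idx g)) : Act g := fun X z =>
  if z ∈ strip p.h0 g X then
    ((Wt g p.δ p.κ V X (fun v => (z v).re) / p.A ^ X.card : ℝ) : ℂ) * a (X, (fun v => (z v).re), fun v => ((z v).im : ℂ) * Complex.I)
  else 0

/-! ## 2. The plane: copy-consistent families -/

/-- sup-diameter of a finite plane set -/
def pdiam (S : Finset (ℤ × ℤ)) : ℕ := S.sup fun x => S.sup fun y => max (x.1 - y.1).natAbs (x.2 - y.2).natAbs

/-- the blocks met by the folded plane set -/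
def Grid.foldS (g : Grid G) (S : Finset (ℤ × ℤ)) : Finset g.I := S.image fun x => g.blk (G.π x)

/-- unwrapped polymers -/
def Grid.Unwr (g : Grid G) (c0 : ℕ) (X : Finset g.I) : Prop :=
  ∃ S : Finset (ℤ × ℤ), g.foldS S = X ∧ pdiam S + 2 * c0 * g.m < G.M

open Classical in
/-- restriction to unwrapped polymers -/
def cutW (c0 : ℕ) {g : Grid G} (K : Act g) : Act g := fun X => if g.Unwr c0 X then K X else 0

/-- `K'` on `G'` is a copy of `K` on `G` -/
def Copy (h0 : ℝ≥0) (c0 : ℕ) {G G' : Geom} (g : Grid G) (g' : Grid G') (K : Act g) (K' : Act g') : Prop :=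
  ∀ S : Finset (ℤ × ℤ), pdiam S + 2 * c0 * g.m < G.M → pdiam S + 2 * c0 * g.m < G'.M →
    ∀ z ∈ strip h0 g (g.foldS S), ∀ z' ∈ strip h0 g' (g'.foldS S),
      (∀ x : ℤ × ℤ, (∃ y ∈ S, max (x.1 - y.1).natAbs (x.2 - y.2).natAbs ≤ c0 * g.m) → z (G.π x) = z' (G'.π x)) →
      K (g.foldS S) z = K' (g'.foldS S) z'

/-- one level on one torus -/
structure Lvl where
  G : Geom
  g : Grid G
  gs : Grid G
  V : Extra g

/-- evaluation points of a family -/
abbrev FIdx {ι : Type} (F : ι → Lvl) : Type := Σ i, Idx (F i).g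

/-- **the bulk space `𝒜^bulk_{u,s}`** over the family of tori `F` -/
def BulkSp (p : Par) (col R c0 : ℕ) {ι : Type} (F : ι → Lvl) : Submodule ℂ (Amb (FIdx F)) where
  carrier := {a | ∃ K : ∀ i, Act (F i).g, (∀ i, (K i).Cls p col R (F i).gs) ∧ (∀ i X, ¬ (F i).g.Unwr c0 X → K i X = 0) ∧
    (∀ i i', Copy p.h0 c0 (F i).g (F i').g (K i) (K i')) ∧ ∀ i x, a ⟨i, x⟩ = ev p (F i).g (F i).V (K i) x}
  add_mem' := by
    rintro a b ⟨K, hK, hU, hC, ha⟩ ⟨K', hK', hU', hC', hb⟩
    refine ⟨fun i => K i + K' i, fun i => (hK i).sp_add (hK' i), fun i X hX => ?_, fun i i' S h1 h2 z hz z' hz' e => ?_,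
      fun i x => by rw [sp_ev_add, ← ha, ← hb]; rfl⟩
    · show K i X + K' i X = 0
      rw [hU i X hX, hU' i X hX, add_zero]
    · show K i _ z + K' i _ z = K i' _ z' + K' i' _ z'
      rw [hC i i' S h1 h2 z hz z' hz' e, hC' i i' S h1 h2 z hz z' hz' e]
  zero_mem' := ⟨fun _ => 0, fun i => Act.Cls.sp_zero p col R _ _, fun _ _ _ => rfl, fun _ _ _ _ _ _ _ _ _ _ => rfl,
    fun i x => by rw [sp_ev_zero]; rfl⟩
  smul_mem' := by
    rintro c a ⟨K, hK, hU, hC, ha⟩
    refine ⟨fun i => c • K i, fun i => (hK i).sp_smul c, fun i X hX => ?_, fun i i' S h1 h2 z hz z' hz' e => ?_,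
      fun i x => by rw [sp_ev_smul, ← ha]; rfl⟩
    · show c • K i X = 0
      rw [hU i X hX, smul_zero]
    · show c • K i _ z = c • K i' _ z'
      rw [hC i i' S h1 h2 z hz z' hz' e]

/-! ### the standard tower of tori -/

/-- the torus of side `D0 L^h` -/
def towerG (L D0 : ℕ) (hL : 0 < L) (hD : 0 < D0) (h : ℕ) : Geom := ⟨BC.per, D0 * L ^ h, Nat.mul_pos hD (pow_pos hL h)⟩

/-- the grid of side `L^j` on the torus `h ≥ j` -/
def towerGrid (L D0 : ℕ) (hL : 0 < L) (hD : 0 < D0) (j h : ℕ) (hj : j ≤ h) : Grid (towerG L D0 hL hD h) :=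
  torusGrid _ (L ^ j) (Dvd.dvd.mul_left (pow_dvd_pow L hj) D0)

end

end Claimed.Agent.R285.RG
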