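import Claimed.Agent.R285.Sp.Defs
import Claimed.Agent.R285.Sp.Hol

/-!
# ROW 285, package BP-PK-SPACES: the dictionary `ev` / `Amb.act`, limits in the norm      (owner helper214)
-/

set_option autoImplicit false

namespace Claimed.Agent.R285.RG

open scoped BigOperators ENNReal NNReal
open Filter Topology

noncomputable section

variable {G : Geom}

/-- the weight of an evaluation point -/
def spW (p : Par) (g : Grid G) (V : Extra g) (X : Finset g.I) (φ : G.V → ℝ) : ℝ := p.A ^ X.card / Wt g p.δ p.κ V X φ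

theorem sp_Wt_pos (p : Par) (g : Grid G) (V : Extra g) (X : Finset g.I) (φ : G.V → ℝ) : 0 < Wt g p.δ p.κ V X φ :=
  Real.exp_pos _

theorem sp_W_pos (p : Par) (hA : 0 < p.A) (g : Grid G) (V : Extra g) (X : Finset g.I) (φ : G.V → ℝ) : 0 < spW p g V X φ :=
  div_pos (pow_pos hA _) (sp_Wt_pos p g V X φ)

theorem sp_ev_pos (p : Par) (g : Grid G) (V : Extra g) (K : Act g) (X : Finset g.I) (φ : G.V → ℝ) (f : G.V → ℂ)
    (hf : tnorm g X f < p.h0) : ev p g V K (X, φ, f) = (spW p g V X φ : ℂ) * K X (toC φ + f) := by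
  unfold ev spW
  rw [if_pos hf]

theorem sp_ev_neg (p : Par) (g : Grid G) (V : Extra g) (K : Act g) (X : Finset g.I) (φ : G.V → ℝ) (f : G.V → ℂ)
    (hf : ¬ tnorm g X f < p.h0) : ev p g V K (X, φ, f) = 0 := by
  unfold ev
  rw [if_neg hf]

theorem sp_act_pos (p : Par) (g : Grid G) (V : Extra g) (a : Amb (Idx g)) (X : Finset g.I) (z : G.V → ℂ)
    (hz : z ∈ strip p.h0 g X) : Amb.act p g V a X z = ((spW p g V X (spRe z))⁻¹ : ℝ) * a (X, spRe z, spIm z) := by
  unfold Amb.act spW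
  rw [if_pos hz, inv_div]
  rfl

theorem sp_act_neg (p : Par) (g : Grid G) (V : Extra g) (a : Amb (Idx g)) (X : Finset g.I) (z : G.V → ℂ)
    (hz : z ∉ strip p.h0 g X) : Amb.act p g V a X z = 0 := by
  unfold Amb.act
  rw [if_neg hz]

/-- on the strips `Amb.act` inverts `ev` -/
theorem sp_act_of_ev (p : Par) (hA : 0 < p.A) (g : Grid G) (V : Extra g) (a : Amb (Idx g)) (K : Act g)
    (h : ∀ i, a i = ev p g V K i) (X : Finset g.I) (z : G.V → ℂ) (hz : z ∈ strip p.h0 g X) : Amb.act p g V a X z = K X z := by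
  rw [sp_act_pos p g V a X z hz, h, sp_ev_pos p g V K X _ _ (sp_mem_strip_iff.1 hz), sp_decomp]
  have h0 : (spW p g V X (spRe z) : ℂ) ≠ 0 := by exact_mod_cast (sp_W_pos p hA g V X _).ne'
  push_cast
  field_simp

theorem sp_ev_congr (p : Par) (g : Grid G) (V : Extra g) (K K' : Act g) (h : ∀ X, ∀ z ∈ strip p.h0 g X, K X z = K' X z)
    (i : Idx g) : ev p g V K i = ev p g V K' i := by
  obtain ⟨X, φ, f⟩ := i
  by_cases hf : tnorm g X f < p.h0
  · rw [sp_ev_pos _ _ _ _ _ _ _ hf, sp_ev_pos _ _ _ _ _ _ _ hf, h X _ (sp_mem_strip_add hf φ)]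
  · rw [sp_ev_neg _ _ _ _ _ _ _ hf, sp_ev_neg _ _ _ _ _ _ _ hf]

/-! ## the norm -/

theorem sp_term (p : Par) (hA : 0 < p.A) (g : Grid G) (V : Extra g) (X : Finset g.I) (φ : G.V → ℝ) (w : ℂ) :
    ENNReal.ofReal (p.A ^ X.card) * ((‖w‖₊ : ℝ≥0∞) / ENNReal.ofReal (Wt g p.δ p.κ V X φ))
      = ENNReal.ofReal ‖(spW p g V X φ : ℂ) * w‖ := by
  have hW := sp_Wt_pos p g V X φ
  have h1 : ‖(spW p g V X φ : ℂ) * w‖ = p.A ^ X.card / Wt g p.δ p.κ V X φ * ‖w‖ := by
    rw [norm_mul, Complex.norm_real, Real.norm_of_nonneg (sp_W_pos p hA g V X φ).le]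
    rfl
  rw [h1, ENNReal.ofReal_mul (by positivity), ENNReal.ofReal_div_of_pos hW, ofReal_norm, enorm_eq_nnnorm]
  simp only [div_eq_mul_inv]
  ring

theorem sp_actNorm_eq (p : Par) (hA : 0 < p.A) (g : Grid G) (V : Extra g) (a : Amb (Idx g)) (K : Act g)
    (h : ∀ i, a i = ev p g V K i) : actNorm p g V K = ENNReal.ofReal ‖a‖ := by
  unfold actNorm fnSize ptNorm
  simp only [ENNReal.mul_iSup, ENNReal.iSup_div]
  apply le_antisymm
  · refine iSup_le fun X => iSup_le fun φ => iSup_le fun f => ?_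
    rw [sp_term p hA, ← sp_ev_pos p g V K X φ f.1 f.2, ← h]
    exact ENNReal.ofReal_le_ofReal (lp.norm_apply_le_norm ENNReal.top_ne_zero a _)
  · set S : ℝ≥0∞ := ⨆ X : Finset g.I, ⨆ φ : G.V → ℝ, ⨆ f : {f : G.V → ℂ // tnorm g X f < p.h0},
      ENNReal.ofReal (p.A ^ X.card) * ((‖K X (toC φ + f.1)‖₊ : ℝ≥0∞) / ENNReal.ofReal (Wt g p.δ p.κ V X φ)) with hS
    by_cases hS' : S = ⊤
    · rw [hS']; exact le_top
    refine ENNReal.ofReal_le_of_le_toReal ?_
    refine lp.norm_le_of_forall_le ENNReal.toReal_nonneg fun i => ?_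
    obtain ⟨X, φ, f⟩ := i
    by_cases hf : tnorm g X f < p.h0
    · have h1 : ENNReal.ofReal ‖a (X, φ, f)‖ ≤ S := by
        rw [h, sp_ev_pos p g V K X φ f hf, ← sp_term p hA]
        exact le_iSup_of_le X (le_iSup_of_le φ (le_iSup_of_le (⟨f, hf⟩ : {f : G.V → ℂ // tnorm g X f < p.h0}) le_rfl))
      exact (ENNReal.ofReal_le_iff_le_toReal hS').1 h1
    · rw [h, sp_ev_neg p g V K X φ f hf, norm_zero]
      exact ENNReal.toReal_nonneg

/-! ## classes and pointwise limits in the strips -/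

theorem sp_ok_of_tendsto {p : Par} {col R : ℕ} {g : Grid G} (Kn : ℕ → Act g) (K : Act g) (hn : ∀ n, (Kn n).Ok p col R)
    (hol : ∀ X, Hol p.h0 g X (K X)) (hlim : ∀ X, ∀ z ∈ strip p.h0 g X, Tendsto (fun n => Kn n X z) atTop (𝓝 (K X z)))
    (hj : ∀ X z, z ∉ strip p.h0 g X → K X z = 0) : K.Ok p col R where
  fn := fun X =>
    { hol := hol X
      loc := fun z hz z' hz' e => by
        refine tendsto_nhds_unique (hlim X z hz) ?_
        have : (fun n => Kn n X z) = fun n => Kn n X z' := funext fun n => ((hn n).fn X).loc z hz z' hz' e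
        rw [this]
        exact hlim X z' hz'
      per := fun z hz => by
        refine tendsto_nhds_unique (hlim X _ (sp_add_real_mem_strip hz p.ω)) ?_
        have : (fun n => Kn n X fun v => z v + (p.ω : ℂ)) = fun n => Kn n X z := funext fun n => ((hn n).fn X).per z hz
        rw [this]
        exact hlim X z hz }
  poly := fun X hX => by
    funext z
    by_cases hz : z ∈ strip p.h0 g X
    · refine tendsto_nhds_unique (hlim X z hz) ?_
      have : (fun n => Kn n X z) = fun _ => (0 : ℂ) := funext fun n => by rw [(hn n).poly X hX]; rfl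
      rw [this]
      exact tendsto_const_nhds
    · exact hj X z hz

theorem sp_even_of_tendsto {h0 : ℝ≥0} {g : Grid G} (Kn : ℕ → Act g) (K : Act g) (hn : ∀ n, (Kn n).Even h0)
    (hlim : ∀ X, ∀ z ∈ strip h0 g X, Tendsto (fun n => Kn n X z) atTop (𝓝 (K X z))) : K.Even h0 := fun X z hz => by
  refine tendsto_nhds_unique (hlim X _ (sp_neg_mem_strip hz)) ?_
  have : (fun n => Kn n X (-z)) = fun n => Kn n X z := funext fun n => hn n X z hz
  rw [this]
  exact hlim X z hz

theorem sp_sym_of_tendsto {h0 : ℝ≥0} {g gs : Grid G} (Kn : ℕ → Act g) (K : Act g) (hn : ∀ n, (Kn n).Sym h0 gs)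
    (hlim : ∀ X, ∀ z ∈ strip h0 g X, Tendsto (fun n => Kn n X z) atTop (𝓝 (K X z))) : K.Sym h0 gs :=
  fun s hs X z hz hz' => by
    refine tendsto_nhds_unique (hlim _ _ hz') ?_
    have : (fun n => Kn n (X.map s.τ.toEmbedding) fun v => z (s.σ.symm v)) = fun n => Kn n X z :=
      funext fun n => hn n s hs X z hz hz'
    rw [this]
    exact hlim X z hz

theorem sp_cls_of_tendsto {p : Par} {col R : ℕ} {g gs : Grid G} (Kn : ℕ → Act g) (K : Act g) (hn : ∀ n, (Kn n).Cls p col R gs)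
    (hol : ∀ X, Hol p.h0 g X (K X)) (hlim : ∀ X, ∀ z ∈ strip p.h0 g X, Tendsto (fun n => Kn n X z) atTop (𝓝 (K X z)))
    (hj : ∀ X z, z ∉ strip p.h0 g X → K X z = 0) : K.Cls p col R gs :=
  ⟨sp_ok_of_tendsto Kn K (fun n => (hn n).ok) hol hlim hj, sp_even_of_tendsto Kn K (fun n => (hn n).even) hlim,
    sp_sym_of_tendsto Kn K (fun n => (hn n).sym) hlim⟩

theorem sp_copy_of_tendsto {h0 : ℝ≥0} {c0 : ℕ} {G G' : Geom} {g : Grid G} {g' : Grid G'} (Kn : ℕ → Act g) (Kn' : ℕ → Act g')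
    (K : Act g) (K' : Act g') (hn : ∀ n, Copy h0 c0 g g' (Kn n) (Kn' n))
    (hlim : ∀ X, ∀ z ∈ strip h0 g X, Tendsto (fun n => Kn n X z) atTop (𝓝 (K X z)))
    (hlim' : ∀ X, ∀ z ∈ strip h0 g' X, Tendsto (fun n => Kn' n X z) atTop (𝓝 (K' X z))) : Copy h0 c0 g g' K K' :=
  fun S h1 h2 z hz z' hz' e => by
    refine tendsto_nhds_unique (hlim _ z hz) ?_
    have : (fun n => Kn n (g.foldS S) z) = fun n => Kn' n (g'.foldS S) z' := funext fun n => hn n S h1 h2 z hz z' hz' e
    rw [this]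
    exact hlim' _ z' hz'

/-! ## limits in the norm -/

theorem sp_tendsto_apply {ι : Type} (an : ℕ → Amb ι) (a : Amb ι) (h : Tendsto an atTop (𝓝 a)) (i : ι) :
    Tendsto (fun n => an n i) atTop (𝓝 (a i)) := by
  rw [tendsto_iff_norm_sub_tendsto_zero] at h ⊢
  refine squeeze_zero (fun _ => norm_nonneg _) (fun n => ?_) h
  exact lp.norm_apply_le_norm ENNReal.top_ne_zero (an n - a) i

/-- **the core**: a limit in `ℓ^∞` of weighted evaluations of holomorphic activities is the weighted evaluation of a holomorphic activity -/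
theorem sp_limit (p : Par) (hA : 0 < p.A) (g : Grid G) (V : Extra g) (an : ℕ → Amb (Idx g)) (a : Amb (Idx g)) (Kn : ℕ → Act g)
    (hev : ∀ n i, an n i = ev p g V (Kn n) i) (hhol : ∀ n X, Hol p.h0 g X (Kn n X)) (hlim : Tendsto an atTop (𝓝 a)) :
    (∀ X, ∀ z ∈ strip p.h0 g X, Tendsto (fun n => Kn n X z) atTop (𝓝 (Amb.act p g V a X z))) ∧
    (∀ i, a i = ev p g V (Amb.act p g V a) i) ∧ (∀ X, Hol p.h0 g X (Amb.act p g V a X)) := by
  have h1 : ∀ X, ∀ z ∈ strip p.h0 g X, Tendsto (fun n => Kn n X z) atTop (𝓝 (Amb.act p g V a X z)) := by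
    intro X z hz
    have e : (fun n => Kn n X z) = fun n => ((spW p g V X (spRe z))⁻¹ : ℝ) * an n (X, spRe z, spIm z) := by
      funext n
      rw [← sp_act_of_ev p hA g V (an n) (Kn n) (hev n) X z hz, sp_act_pos p g V _ X z hz]
    rw [e, sp_act_pos p g V a X z hz]
    exact (sp_tendsto_apply an a hlim _).const_mul _
  have h2 : ∀ i, a i = ev p g V (Amb.act p g V a) i := by
    rintro ⟨X, φ, f⟩
    refine tendsto_nhds_unique (sp_tendsto_apply an a hlim _) ?_
    by_cases hf : tnorm g X f < p.h0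
    · have e : (fun n => an n (X, φ, f)) = fun n => (spW p g V X φ : ℂ) * Kn n X (toC φ + f) := by
        funext n
        rw [hev, sp_ev_pos _ _ _ _ _ _ _ hf]
      rw [e, sp_ev_pos _ _ _ _ _ _ _ hf]
      exact (h1 X _ (sp_mem_strip_add hf φ)).const_mul _
    · have e : (fun n => an n (X, φ, f)) = fun _ => (0 : ℂ) := by
        funext n
        rw [hev, sp_ev_neg _ _ _ _ _ _ _ hf]
      rw [e, sp_ev_neg _ _ _ _ _ _ _ hf]
      exact tendsto_const_nhds
  refine ⟨h1, h2, fun X => ?_⟩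
  refine sp_differentiableOn_of_tendsto (sp_isOpen_strip p.h0 g X) (fun n => Kn n X) _ (fun n => hhol n X) fun x hx => ?_
  refine ⟨spPoly p.h0 g X (spRe x), (sp_isOpen_poly p.h0 g X _).mem_nhds (sp_mem_poly_self hx), ?_⟩
  rw [Metric.tendstoUniformlyOn_iff]
  intro ε hε
  set c := spW p g V X (spRe x) with hc
  have hc0 : 0 < c := sp_W_pos p hA g V X _
  have hl := (tendsto_iff_norm_sub_tendsto_zero.1 hlim).eventually (gt_mem_nhds (show 0 < ε * c by positivity))
  filter_upwards [hl] with n hn z hz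
  have hf : tnorm g X (z - toC (spRe x)) < p.h0 := hz
  have ez : toC (spRe x) + (z - toC (spRe x)) = z := by abel
  have e1 := h2 (X, spRe x, z - toC (spRe x))
  have e2 := hev n (X, spRe x, z - toC (spRe x))
  rw [sp_ev_pos _ _ _ _ _ _ _ hf, ez] at e1 e2
  have e3 : (c : ℂ) * (Amb.act p g V a X z - Kn n X z) = -((an n - a) (X, spRe x, z - toC (spRe x))) := by
    have : (an n - a) (X, spRe x, z - toC (spRe x)) = an n (X, spRe x, z - toC (spRe x)) - a (X, spRe x, z - toC (spRe x)) := rfl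
    rw [this, e1, e2]; ring
  have e4 : c * ‖Amb.act p g V a X z - Kn n X z‖ ≤ ‖an n - a‖ := by
    have := lp.norm_apply_le_norm ENNReal.top_ne_zero (an n - a) (X, spRe x, z - toC (spRe x))
    rw [← norm_neg, ← e3, norm_mul, Complex.norm_real, Real.norm_of_nonneg hc0.le] at this
    exact this
  rw [dist_eq_norm]
  have : c * ‖Amb.act p g V a X z - Kn n X z‖ < c * ε := by
    calc _ ≤ ‖an n - a‖ := e4
      _ < ε * c := hn
      _ = c * ε := mul_comm _ _
  exact lt_of_mul_lt_mul_left this hc0.le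

end

end Claimed.Agent.R285.RG
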